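import Vale.Agent.P352X.FSS.A

/-!
# P352X, block FSS: the component of dimension four of a stress tensor
-/

set_option linter.all false

open Filter Topology
open scoped ComplexConjugate

namespace Vale.Agent.P352X.Fss

open Vale.Agent.P352 Vale.Agent.P352.GF Vale.Agent.P352.H15 Vale.Agent.P352.H755
open Vale.Agent.P352.H496

noncomputable section

variable {D : Type*} [NormedAddCommGroup D] [InnerProductSpace ℂ D] {Q : Theory D}
  {A : (V → V) → D → D} {T T' : Ix → Ix → Fld D} {B : Fld D} {f g : Fn} {s : ℝ}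

/-- the characters of the dilation group -/
def chi (d : ℂ) : Multiplicative ℝ →* ℂ where
  toFun t := Complex.exp (t.toAdd * d)
  map_one' := by simp
  map_mul' s t := by simp [add_mul, Complex.exp_add]

lemma chi_inj : Function.Injective chi := fun d d' h => by
  have e : ∀ d : ℂ, HasDerivAt (fun t : ℝ => Complex.exp (t * d)) d 0 := fun d => by
    simpa using ((Complex.ofRealCLM.hasDerivAt (x := 0)).mul_const d).cexp
  exact (e d).unique ((e d').congr_of_eventuallyEq (.of_forall fun t =>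
    DFunLike.congr_fun h (Multiplicative.ofAdd t)))

lemma vand (F : Finset ℂ) : ∃ c : ℝ →₀ ℂ, ∀ d ∈ F,
    ∑ t ∈ c.support, c t * (Real.exp t : ℂ) ^ (d - 4) = if d = 4 then 1 else 0 := by
  classical
  let v : ℝ → F → ℂ := fun t d => Complex.exp (t * (d - 4))
  have h : Submodule.span ℂ (Set.range v) = ⊤ := by
    by_contra h
    obtain ⟨φ, h0, h1⟩ := Submodule.exists_le_ker_of_lt_top _ (lt_top_iff_ne_top.2 h)
    have li := Fintype.linearIndependent_iff.1 ((linearIndependent_monoidHom (Multiplicative ℝ)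
      ℂ).comp (fun d : F => chi (d - 4)) fun d d' e => Subtype.ext (sub_left_injective (chi_inj e)))
      (fun d => φ fun j => if d = j then 1 else 0) (funext fun t => by
        have := h1 (Submodule.subset_span ⟨t.toAdd, rfl⟩)
        rw [LinearMap.mem_ker, LinearMap.pi_apply_eq_sum_univ] at this
        simpa [v, chi, mul_comm] using this)
    exact h0 (LinearMap.ext fun x => by simp [LinearMap.pi_apply_eq_sum_univ φ x, li])
  obtain ⟨c, hc⟩ := Finsupp.mem_span_range_iff_exists_finsupp.1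
    (h ▸ Submodule.mem_top : (fun d : F => if (d : ℂ) = 4 then (1 : ℂ) else 0) ∈ _)
  refine ⟨c, fun d hd => Eq.trans ?_ (congrFun hc ⟨d, hd⟩)⟩
  rw [Finsupp.sum, Finset.sum_apply]
  refine Finset.sum_congr rfl fun t _ => ?_
  rw [Complex.ofReal_exp, Complex.cpow_def_of_ne_zero (Complex.exp_ne_zero _),
    Complex.log_exp (by simpa using Real.pi_pos) (by simpa using Real.pi_pos.le)]
  rfl

lemma far {G : ℝ → Fn} (hG : IsCutoff G) (hf : HasCompactSupport f) : ∃ r0 > 0, ∀ r r', r0 ≤ r →
    r0 ≤ r' → ∀ h : Fn, (∀ x, G r x = G r' x → h x = 0) → Sep h f := by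
  obtain ⟨a, c, ha, -, -, h2, h3⟩ := hG
  obtain ⟨ε, hε, h4⟩ := Metric.eventually_nhds_iff_ball.1 h2
  obtain ⟨τ, hτ, h5⟩ := ha.isCompact.isBounded.exists_pos_norm_le
  obtain ⟨ρ, hρ, h6⟩ := hf.isCompact.isBounded.exists_pos_norm_le
  refine ⟨(τ + 2 * ρ + 1) / ε, by positivity, fun r r' hr hr' h hh x hx y hy => ?_⟩
  have p : 0 < (τ + 2 * ρ + 1) / ε := by positivity
  have one : ∀ r, (τ + 2 * ρ + 1) / ε ≤ r → ∀ x : V, (∀ i, i ≠ o → |x i| < τ + 2 * ρ + 1) →
      G r x = a (x o) := fun r hr x hx => by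
    rw [(h3 r (p.trans_le hr)).2, h4, Complex.ofReal_one, mul_one]
    rw [mem_ball_zero_iff, pi_norm_lt_iff hε]
    intro n
    split_ifs with hn
    · simpa using hε
    · rw [norm_div, Real.norm_eq_abs, Real.norm_of_nonneg (p.trans_le hr).le,
        div_lt_iff₀ (p.trans_le hr)]
      exact (hx n hn).trans_le ((div_le_iff₀' hε).1 hr)
  obtain ⟨k1, i, hi, k2⟩ : |x o| ≤ τ ∧ ∃ i, i ≠ o ∧ τ + 2 * ρ + 1 ≤ |x i| := by
    refine closure_minimal (t := {x : V | |x o| ≤ τ ∧ ∃ i, i ≠ o ∧ τ + 2 * ρ + 1 ≤ |x i|})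
      (fun z hz => ⟨?_, ?_⟩) ((isClosed_le (f := fun x : V => |x o|) (by fun_prop) continuous_const).inter ?_) hx
    · refine h5 _ (subset_tsupport _ fun h0 => hz (hh z ?_))
      rw [(h3 r (p.trans_le hr)).2, (h3 r' (p.trans_le hr')).2, h0]
      simp
    · by_contra k
      push Not at k
      exact hz (hh z ((one r hr z k).trans (one r' hr' z k).symm))
    · show IsClosed {x : V | ∃ i, i ≠ o ∧ τ + 2 * ρ + 1 ≤ |x i|}
      rw [Set.setOf_exists]
      exact isClosed_iUnion_of_finite fun i => isClosed_const.inter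
        (isClosed_le (g := fun x : V => |x i|) continuous_const (by fun_prop))
  have b := fun i => (norm_le_pi_norm y i).trans (h6 y hy)
  have k3 : (x 0 - y 0) ^ 2 < (x i - y i) ^ 2 := sq_lt_sq.2 (by
    have h7 := abs_sub (x o) (y o)
    have h8 := abs_sub_abs_le_abs_sub (x i) (y i)
    have h9 : |y o| ≤ ρ := b o
    have h10 : |y i| ≤ ρ := b i
    show |x o - y o| < _
    linarith)
  rw [mdot_eq]
  have s1 := mul_self_nonneg (x 1 - y 1)
  have s2 := mul_self_nonneg (x 2 - y 2)
  have s3 := mul_self_nonneg (x 3 - y 3)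
  fin_cases i
  · exact absurd rfl hi
  all_goals
    simp only [Fin.reduceFinMk, Fin.mk_one] at k3
    nlinarith

/-- commutators with large cutoffs do not depend on the cutoff -/
lemma cm_eq {C : Fld D} (hC : Q.bose C) (hB : Q.fld B) (hf : IsTest f) {g' : Fn} (hg : IsTest g)
    (hg' : IsTest g') (h : Sep (fun x => g x - g' x) f) (v : D) :
    cm C g B f v = cm C g' B f v := by
  have ht : IsTest fun x => g x - g' x := Ap.sw_sub hg hg'
  have e : ∀ z, C g z = C g' z + C (fun x => g x - g' x) z := fun z => by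
    simpa using Q.lin C _ _ 1 z (Q.bose_fld _ hC) hg' ht
  rw [cm, cm, e, e, Q.loc C B _ f v hC hB ht hf h, ← fl_apply hB hf (_ + _), map_add]
  simp only [fl_apply]
  abel

lemma test_xg (l : Ix) (hg : IsTest g) : IsTest (xg l g) :=
  Ap.sw_rmul (u := fun x : V => x l) (by fun_prop) hg

lemma zero_of {E : ℝ → D} {r0 : ℝ} (h : ∀ r, r0 ≤ r → E r = E r0)
    (l : ∀ w, Tendsto (fun r => inner ℂ w (E r)) atTop (𝓝 (0 : ℂ))) : E r0 = 0 :=
  inner_self_eq_zero.1 (tendsto_nhds_unique (tendsto_const_nhds.congr'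
    ((eventually_ge_atTop r0).mono fun r hr => by rw [h r hr])) (l (E r0)))

/-- the generators of the Lorentz group -/
def rot (l n : Ix) (z : V) : V := fun k => z l * bas n (eta n) k - z n * bas l (eta l) k

lemma rot_sim (l n : Ix) : IsSim 0 (rot l n) := by
  refine ⟨0, fun m k => bas l 1 m * bas n (eta n) k - bas n 1 m * bas l (eta l) k,
    fun m k => ?_, fun z k => ?_⟩
  · fin_cases l <;> fin_cases n <;> fin_cases m <;> fin_cases k <;> simp [bas, eta, o]
  · simp [rot, bas, mul_sub, Finset.sum_sub_distrib, ite_and]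

lemma cur_rot (hT : ∀ m n, Q.fld (T m n)) (l n : Ix) (hg : IsTest g) (z : D) :
    ND.cur T (rot l n) g z = T o n (xg l g) z - T o l (xg n g) z := by
  have : ∀ k, T o k (fun x => (eta k : ℂ) * rot l n x k * g x) z =
      (bas n 1 k : ℂ) • T o k (xg l g) z + (-bas l 1 k : ℂ) • T o k (xg n g) z := fun k => by
    rw [← lin2 (hT o k) (test_xg l hg) (test_xg n hg)]
    congr 1
    funext x
    have : eta k * rot l n x k = bas n 1 k * x l - bas l 1 k * x n := by
      fin_cases k <;> fin_cases l <;> fin_cases n <;> simp [rot, bas, eta, o]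
    rw [← Complex.ofReal_mul, this, xg, xg]
    push_cast
    ring
  simp [ND.cur, this, Finset.sum_add_distrib, bas, apply_ite Complex.ofReal, sub_eq_add_neg]

/-- two stress tensors with the same charges have the same improvements -/
lemma impr (hT : Stress0 Q T) (hP : ND.PCh Q T A) (hT' : Q.IsStress T') (hP' : ND.PCh Q T' A)
    {t : Ix → Ix → Fld D} (h : IsImpr Q T' t) : IsImpr Q T t := by
  refine { h with charge := fun G B f hG hB hf hc => ?_ }
  obtain ⟨r0, p, hr0⟩ := far hG hc
  have ht : ∀ r, r0 ≤ r → IsTest (G r) := fun r hr =>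
    let ⟨_, _, _, _, _, _, h⟩ := hG; (h r (p.trans_le hr)).1
  have e1 : ∀ C, Q.bose C → ∀ r, r0 ≤ r → ∀ v, cm C (G r) B f v = cm C (G r0) B f v :=
    fun C hC r hr => cm_eq hC hB hf (ht r hr) (ht r0 le_rfl)
      (hr0 r r0 hr le_rfl _ fun x hx => sub_eq_zero.2 hx)
  have e2 : ∀ C, Q.bose C → ∀ l r, r0 ≤ r → ∀ v,
      cm C (xg l (G r)) B f v = cm C (xg l (G r0)) B f v :=
    fun C hC l r hr => cm_eq hC hB hf (test_xg l (ht r hr)) (test_xg l (ht r0 le_rfl))
      (hr0 r r0 hr le_rfl _ fun x hx => by rw [xg, xg, hx, sub_self])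
  filter_upwards [h.charge G B f hG hB hf hc, eventually_ge_atTop r0] with r h1 hr l n v
  rw [(h1 l n v).1, (h1 l n v).2, e1 _ (hT.bose _ _) r hr, e1 _ (hT'.bose _ _) r hr,
    e2 _ (hT.bose _ _) _ r hr, e2 _ (hT.bose _ _) _ r hr, e2 _ (hT'.bose _ _) _ r hr,
    e2 _ (hT'.bose _ _) _ r hr]
  refine ⟨sub_eq_zero.1 (zero_of (E := fun r => cm (T' o n) (G r) B f v - cm (T o n) (G r) B f v)
    (fun r hr => by rw [e1 _ (hT.bose _ _) r hr, e1 _ (hT'.bose _ _) r hr]) fun w => ?_),
    sub_eq_zero.1 (zero_of (E := fun r => (cm (T' o n) (xg l (G r)) B f v -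
      cm (T' o l) (xg n (G r)) B f v) - (cm (T o n) (xg l (G r)) B f v -
      cm (T o l) (xg n (G r)) B f v)) (fun r hr => by
        rw [e2 _ (hT.bose _ _) _ r hr, e2 _ (hT.bose _ _) _ r hr, e2 _ (hT'.bose _ _) _ r hr,
          e2 _ (hT'.bose _ _) _ r hr]) fun w => ?_)⟩
  · simpa only [sub_self, ← inner_sub_right, cm] using
      (hT'.charge G n B f v w hG hB hf hc).sub (hT.charge G n B f v w hG hB hf hc)
  · have := (hP' G _ B f v w hG (rot_sim l n) hB hf hc).sub
      (hP G _ B f v w hG (rot_sim l n) hB hf hc)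
    rw [sub_self] at this
    refine this.congr' ((eventually_ge_atTop r0).mono fun r hr => ?_)
    simp only [cur_rot (fun m n => Q.bose_fld _ (hT.bose m n)) l n (ht r hr),
      cur_rot (fun m n => Q.bose_fld _ (hT'.bose m n)) l n (ht r hr), ← inner_sub_right, cm,
      ← fl_apply hB hf, map_sub]
    congr 1
    abel

end

end Vale.Agent.P352X.Fss

namespace Vale.Agent.P352X

open Vale.Agent.P352 Vale.Agent.P352.GF Vale.Agent.P352.H15 Vale.Agent.P352.H755
open Vale.Agent.P352.H496 Fss

variable {D : Type*} [NormedAddCommGroup D] [InnerProductSpace ℂ D] {Q : Theory D}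
  {A : (V → V) → D → D} {T : Ix → Ix → Fld D}

/-- **the component of dimension four of a stress tensor is a stress tensor** -/
theorem fss (R : Rep Q A) (hF : FSS Q) (hT : Stress0 Q T) (hP : ND.PCh Q T A) :
    ∃ T', Q.IsStress T' ∧ ND.PCh Q T' A ∧ ∀ t, IsImpr Q T' t → IsImpr Q T t := by
  classical
  have hb := fun m n => Q.bose_fld _ (hT.bose m n)
  choose F C hC hs using fun m n => hF (T m n) (hb m n)
  let G0 : Finset ℂ := insert 4 (Finset.univ.biUnion fun p : Ix × Ix => F p.1 p.2)
  let G := G0 ∪ G0.image conj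
  have h4 : (4 : ℂ) ∈ G := by simp [G, G0]
  have hd : ∀ m n, Dec Q (T m n) G (C m n) := fun m n =>
    ⟨fun d => ⟨(hC m n d).1, (hC m n d).2.2.1⟩, fun f v hf => (hs m n f v hf).trans
      (Finset.sum_subset (fun d hd => Finset.mem_union_left _ (Finset.mem_insert_of_mem
        (Finset.mem_biUnion.2 ⟨(m, n), Finset.mem_univ _, hd⟩))) fun d _ hd => by
          rw [(hC m n d).2.2.2 hd]; rfl)⟩
  obtain ⟨c, hc⟩ := vand G
  have hc' : ∀ d ∈ G, ∑ t ∈ c.support, conj (c t) * (Real.exp t : ℂ) ^ (d - 4) =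
      if d = 4 then 1 else 0 := fun d hd => by
    have := congrArg conj (hc (conj d) (by
      simp only [G, Finset.mem_union, Finset.mem_image] at hd ⊢
      rcases hd with h | ⟨e, h, rfl⟩
      exacts [.inr ⟨d, h, rfl⟩, .inl (by simpa using h)]))
    rw [map_sum, apply_ite conj, map_one, map_zero] at this
    convert this using 2 with t
    · rw [map_mul, show conj d - 4 = conj (d - 4) by simp [map_ofNat], Complex.cpow_conj _ _ (by
        rw [Complex.arg_ofReal_of_nonneg (Real.exp_pos t).le]; exact Real.pi_ne_zero.symm),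
        Complex.conj_conj, Complex.conj_ofReal]
    · exact ⟨fun h => by rw [h, map_ofNat], fun h => by simpa [map_ofNat] using congrArg conj h⟩
  have fm : ∀ a : ℝ → ℂ, (∀ d ∈ G, ∑ t ∈ c.support, a t * (Real.exp t : ℂ) ^ (d - 4) =
      if d = 4 then 1 else 0) → ∀ m n f v, IsTest f → C m n 4 f v =
        ∑ t ∈ c.support, a t • Fss.dl Q _ (Real.exp_pos t) (T m n) f v := fun a ha m n f v hf => by
    simp only [(hd m n).dl R _ hf, Finset.smul_sum, smul_smul]
    rw [Finset.sum_comm, Finset.sum_congr rfl fun d hd => by rw [← Finset.sum_smul, ha d hd]]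
    simp [h4]
  have c1 : ∑ t ∈ c.support, c t = 1 := by simpa using hc 4 h4
  have dec : ∀ B, Q.fld B → ∃ F C, Dec Q B F C := fun B hB =>
    let ⟨F, C, h1, h2⟩ := hF B hB; ⟨F, C, fun d => ⟨(h1 d).1, (h1 d).2.2.1⟩, h2⟩
  have lim : ∀ {B : Fld D} {f : Fn} (hB : Q.fld B) (hf : IsTest f) (P : ℝ → D → D)
      (P' : ℝ → ℝ → D → D) (v w : D) (y : ℂ),
      (∀ᶠ r in atTop, ∀ z, P r z = ∑ t ∈ c.support, c t • P' t r z) →
      (∀ t, Tendsto (fun r => inner ℂ w (P' t r (B f v) - B f (P' t r v))) atTop (𝓝 y)) →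
      Tendsto (fun r => inner ℂ w (P r (B f v) - B f (P r v))) atTop (𝓝 y) :=
    fun hB hf P P' v w y h1 h2 => by
      have := tendsto_finset_sum c.support fun t _ => (h2 t).const_mul (c t)
      rw [← Finset.sum_mul, c1, one_mul] at this
      refine this.congr' (h1.mono fun r hr => ?_)
      simp only [hr, ← fl_apply hB hf, map_sum, map_smul, ← Finset.sum_sub_distrib, ← smul_sub,
        inner_sum, inner_smul_right]
  have h1 : Q.IsStress fun m n => C m n 4 := by
    refine ⟨fun m n => (hC m n 4).2.1 (hT.bose m n), fun m n f v hf => ?_,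
      fun m n f v w hf => ?_, fun m n s L a f v hs hL hf => ?_, fun n f v hf => ?_,
      fun G n B f v w hG hB hf hc' => ?_⟩
    · simp only [fm c hc _ _ f v hf, Fss.dl, hT.symm m n _ _ (ds_test (Real.exp_pos _) hf)]
    · rw [fm c hc _ _ f v hf, fm _ hc' _ _ _ w (Ap.test_bar hf), sum_inner, inner_sum]
      exact Finset.sum_congr rfl fun t _ => by
        rw [inner_smul_left, inner_smul_right, dl_herm R hT _ m n hf]
    · have t1 := Ap.test_sim one_pos hL a hf
      let W : D →ₗ[ℂ] D := ⟨⟨Q.U 1 L a, U_add one_pos hL a⟩, U_smul one_pos hL a⟩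
      have e : ∀ k l, Q.U s L a (C k l 4 (fun x => f (sim s L a x)) v) =
          W (C k l 4 (fun x => f (sim 1 L a x)) (u Q s hs v)) := fun k l => by
        have := (hC k l 4).2.2.1 s _ v hs t1
        rw [sub_self, Complex.cpow_zero, one_smul] at this
        rw [← (U_dil R hs hL a _).2, show C k l 4 _ (u Q s hs v) = _ from this]
        simp only [sim_dil, zero_add, N86.c1_sim _ L a, simL_smul, one_smul]
        rfl
      simp only [e, fm c hc _ _ _ _ t1, map_sum, map_smul, Finset.smul_sum]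
      rw [← (U_dil R hs hL a v).2, fm c hc _ _ f _ hf]
      simp only [dl_cov R hT _ m n hL a hf, Finset.smul_sum]
      rw [Finset.sum_comm]
      refine Finset.sum_congr rfl fun k _ => ?_
      rw [Finset.sum_comm]
      exact Finset.sum_congr rfl fun l _ => Finset.sum_congr rfl fun t _ => smul_comm _ _ _
    · simp only [fun m => fm c hc m n _ v (Ap.test_pd m hf)]
      rw [Finset.sum_comm]
      simp only [← Finset.smul_sum, dl_cons R hT _ n hf, smul_zero, Finset.sum_const_zero]
    · obtain ⟨_, _, h⟩ := dec B hB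
      exact lim hB hf _ (fun t r => Fss.dl Q _ (Real.exp_pos t) (T o n) (G r)) v w _
        ((isTest_cutoff hG).mono fun r hr z => fm c hc o n _ z hr) fun t =>
          dl_charge R hT _ h hG n hf hc' v w
  have h2 : ND.PCh Q (fun m n => C m n 4) A := fun G X B f v w hG hX hB hf hc' => by
    obtain ⟨_, _, h⟩ := dec B hB
    refine lim hB hf _ (fun t r => ND.cur (fun m n => Fss.dl Q _ (Real.exp_pos t) (T m n)) X (G r))
      v w _ ((isTest_cutoff hG).mono fun r hr z => ?_) fun t => dl_pch R hT _ hP h hG hX hf hc' v w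
    simp only [ND.cur, fun n => fm c hc o n _ z (test_sim0 hX hr n), Finset.smul_sum]
    exact Finset.sum_comm
  exact ⟨_, h1, h2, fun t => impr hT hP h1 h2⟩

end Vale.Agent.P352X
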