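import Vale.Agent.P352X.TPD.Fin
import Vale.Agent.P352X.FSS.B

/-!
# P352X: stress tensors without a scaling dimension
-/

set_option linter.all false

namespace Vale.Agent.P352X

open Vale.Agent.P352 Vale.Agent.P352.GF Vale.Agent.P352.BW Vale.Agent.P352.H246
open Vale.Agent.P352.H496 Vale.Agent.P352.H755 Vale.Agent.P352.H15
open UniformSpace (Completion)

variable {D : Type*} [NormedAddCommGroup D] [InnerProductSpace ℂ D]

theorem final_fss (Q : Theory D) (T : Ix → Ix → Fld D) (hT : Stress0 Q T) (hF : FSS Q)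
    (A : (V → V) → D → D) (hA : ND.PCh Q T A) (hG : TfGen Q)
    (N : Set V → VonNeumannAlgebra (Completion D)) (hN : LNm Q A N) (hU : UVac Q) (hR : Rec Q) :
    ∃ T' J, Q.IsStress T' ∧ IsVirial Q T' J ∧
      IsImpr Q T (improveJ T' J) ∧ ConfAct Q (improveJ T' J) := by
  obtain ⟨T', h1, h2, h3⟩ := fss hN.toRep hF hT hA
  obtain ⟨J, h4, h5⟩ := (final0 Q T' h1 A h2 hG N hN hU).2 hR
  have h6 := h5 Q ⟨rfl, rfl, fun _ h => h, fun _ h => h⟩
  exact ⟨T', J, h1, h4, h3 _ h6.1, h6.2⟩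

end Vale.Agent.P352X
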