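import Vale.Agent.P352.GFDefs

open Filter Topology

namespace Vale.Agent.P352X

open Vale.Agent.P352.GF

variable {D : Type*} [NormedAddCommGroup D] [InnerProductSpace ℂ D]

/-- A stress tensor with contravariant components `T m n`. Its behaviour under dilations is not
prescribed. -/
structure Stress0 (Q : Theory D) (T : Ix → Ix → Fld D) : Prop where
  bose : ∀ m n, Q.bose (T m n)
  symm : ∀ m n f v, IsTest f → T m n f v = T n m f v
  herm : ∀ m n f v w, IsTest f → inner ℂ (T m n f v) w = inner ℂ v (T m n (bar f) w)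
  cov : ∀ m n L a f v, IsLor L → IsTest f → T m n f (Q.U 1 L a v) =
    ∑ k, ∑ l, (L k m * L l n : ℂ) • Q.U 1 L a (T k l (fun x => f (sim 1 L a x)) v)
  conserved : ∀ n f v, IsTest f → ∑ m, T m n (pd m f) v = 0
  charge : ∀ F n A f v w, IsCutoff F → Q.fld A → IsTest f → HasCompactSupport f →
    Tendsto (fun R => inner ℂ w (T o n (F R) (A f v) - A f (T o n (F R) v))) atTop
      (𝓝 (inner ℂ w ((Complex.I * eta n) • A (pd n f) v)))

/-- The field `B` has the scaling dimension `d`. -/
def Dim (Q : Theory D) (d : ℂ) (B : Fld D) : Prop := ∀ (s : ℝ) f v, 0 < s → IsTest f →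
  B f (Q.U s one 0 v) = (s : ℂ) ^ (4 - d) • Q.U s one 0 (B (fun x => f (sim s one 0 x)) v)

/-- **Finite scaling support.** Every field is a finite sum of fields with scaling dimensions. -/
def FSS (Q : Theory D) : Prop := ∀ A, Q.fld A → ∃ (F : Finset ℂ) (B : ℂ → Fld D),
  (∀ d, Q.fld (B d) ∧ (Q.bose A → Q.bose (B d)) ∧ Dim Q d (B d) ∧ (d ∉ F → B d = 0)) ∧
  ∀ f v, IsTest f → A f v = ∑ d ∈ F, B d f v

end Vale.Agent.P352X
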