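import Vale.Agent.P352X.FSS.Defs
import Vale.Agent.P352X.Api2b
import Vale.Agent.P352.N86.K.C1
import Vale.Agent.P352.H746.Bk3
import Vale.Agent.P352.H496.ImpDefs

/-!
# P352X, block FSS: dilates of a stress tensor
-/

set_option linter.all false

open Filter Topology
open scoped ComplexConjugate

namespace Vale.Agent.P352X.Fss

open Vale.Agent.P352 Vale.Agent.P352.GF Vale.Agent.P352.H15 Vale.Agent.P352.H755

noncomputable section

variable {D : Type*} [NormedAddCommGroup D] [InnerProductSpace ℂ D] {Q : Theory D}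
  {A : (V → V) → D → D} {T : Ix → Ix → Fld D} {B : Fld D} {f g : Fn} {s : ℝ}

lemma sim_dil (s : ℝ) (a x : V) : sim s GF.one a x = a + s • x := by
  funext n
  simp [sim, GF.one, bas]

/-- `f (s x)` -/
def ds (s : ℝ) (f : Fn) : Fn := fun x => f (sim s GF.one 0 x)

lemma ds_apply (s : ℝ) (f : Fn) (x : V) : ds s f x = f (s • x) := by rw [ds, sim_dil, zero_add]

lemma ds_test (hs : 0 < s) (hf : IsTest f) : IsTest (ds s f) := Ap.test_sim hs isLor_one 0 hf

lemma ds_cpt (hs : 0 < s) (hf : HasCompactSupport f) : HasCompactSupport (ds s f) := by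
  rw [show ds s f = f ∘ Homeomorph.smulOfNeZero s hs.ne' from funext (ds_apply s f)]
  exact hf.comp_homeomorph _

lemma ds_inv (hs : 0 < s) (f : Fn) : ds s⁻¹ (ds s f) = f :=
  funext fun x => by rw [ds_apply, ds_apply, smul_inv_smul₀ hs.ne']

lemma ds_pd (hs : 0 < s) (hf : IsTest f) (m : Ix) :
    pd m (ds s f) = fun x => (s : ℂ) * ds s (pd m f) x := by
  funext x
  have := Ap.dv_aff (s • ContinuousLinearMap.id ℝ V) 0 (x := x) (h := bas m 1)
    (Ap.sw_diff hf _)
  simp only [add_zero, ContinuousLinearMap.smul_apply, ContinuousLinearMap.id_apply,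
    Ap.dv_smul_l, Ap.dv_bas] at this
  rw [ds_apply, ← this]
  congr 1
  exact funext (ds_apply s f)

/-- the dilations -/
def u (Q : Theory D) (s : ℝ) (hs : 0 < s) : D →ₗ[ℂ] D :=
  ⟨⟨Q.U s GF.one 0, U_add hs isLor_one 0⟩, U_smul hs isLor_one 0⟩

lemma lin0 (hB : Q.fld B) (v : D) : B (fun _ => 0) v = 0 := by
  have := Q.lin B _ _ 1 v hB Ap.sw_zero Ap.sw_zero
  simpa using this

lemma lin1 (hB : Q.fld B) (hf : IsTest f) (a : ℂ) (v : D) :
    B (fun x => a * f x) v = a • B f v := by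
  have := Q.lin B _ _ a v hB Ap.sw_zero hf
  simpa [lin0 hB] using this

lemma lin2 (hB : Q.fld B) (hf : IsTest f) (hg : IsTest g) (a b : ℂ) (v : D) :
    B (fun x => a * f x + b * g x) v = a • B f v + b • B g v := by
  rw [Q.lin B _ _ b v hB (Ap.sw_cmul a hf) hg, lin1 hB hf]

/-- smeared fields as linear maps -/
def fl (hB : Q.fld B) (hf : IsTest f) : D →ₗ[ℂ] D :=
  ⟨⟨B f, fun v w => by
    obtain ⟨G, rfl⟩ := exists_fl hf
    exact fld_add hB G v w⟩, H746.fld_smul hB hf⟩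

lemma fl_apply (hB : Q.fld B) (hf : IsTest f) (v : D) : fl hB hf v = B f v := rfl

section
variable (R : Rep Q A)
include R

lemma U_dil (hs : 0 < s) {L : Ix → V} (hL : IsLor L) (a : V) (v : D) :
    u Q s hs (Q.U 1 L a v) = Q.U s L (s • a) v ∧ Q.U 1 L a (u Q s hs v) = Q.U s L a v := by
  constructor
  · refine (R.mul s _ 0 1 L a v hs one_pos isLor_one hL).trans ?_
    simp only [sim_dil, zero_add, one_smul, mul_one]
  · refine (R.mul 1 L a s _ 0 v one_pos hs hL isLor_one).trans ?_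
    have : sim 1 L a 0 = a := by
      funext n
      simp [sim]
    simp only [this, one_mul, GF.one, N86.c1_bas]

lemma u_inv (hs : 0 < s) (v : D) : u Q s hs (u Q s⁻¹ (inv_pos.2 hs) v) = v := by
  have e : ∀ v, Q.U 1 GF.one 0 (Q.U 1 GF.one 0 v) = Q.U 1 GF.one 0 v := fun v => by
    have := (U_dil R one_pos isLor_one 0 v).1
    rwa [smul_zero] at this
  have e1 : Q.U 1 GF.one 0 v = v := by
    rw [← sub_eq_zero, ← inner_self_eq_zero (𝕜 := ℂ), ← Q.U_inner 1 _ 0 _ _ one_pos isLor_one]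
    have := map_sub (u Q 1 one_pos) (Q.U 1 GF.one 0 v) v
    rw [show Q.U 1 GF.one 0 (Q.U 1 GF.one 0 v - v) = 0 from this.trans (sub_eq_zero.2 (e v)),
      inner_zero_left]
  refine (R.mul s _ 0 s⁻¹ _ 0 v hs (inv_pos.2 hs) isLor_one isLor_one).trans ?_
  simpa only [sim_dil, zero_add, one_smul, smul_zero, mul_inv_cancel₀ hs.ne'] using e1

lemma inv_u (hs : 0 < s) (v : D) : u Q s⁻¹ (inv_pos.2 hs) (u Q s hs v) = v := by
  simpa only [inv_inv] using u_inv R (inv_pos.2 hs) v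

lemma u_adj (hs : 0 < s) (v w : D) :
    inner ℂ w (u Q s hs v) = inner ℂ (u Q s⁻¹ (inv_pos.2 hs) w) v := by
  conv_lhs => rw [← u_inv R hs w]
  exact Q.U_inner _ _ _ _ _ hs isLor_one

end

/-- the dilate of a field -/
def dl (Q : Theory D) (s : ℝ) (hs : 0 < s) (B : Fld D) : Fld D := fun f v =>
  u Q s hs (B (ds s f) (u Q s⁻¹ (inv_pos.2 hs) v))

/-- a decomposition into fields with scaling dimensions -/
def Dec (Q : Theory D) (B : Fld D) (F : Finset ℂ) (C : ℂ → Fld D) : Prop :=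
  (∀ d, Q.fld (C d) ∧ Dim Q d (C d)) ∧ ∀ f v, IsTest f → B f v = ∑ d ∈ F, C d f v

variable {F : Finset ℂ} {C : ℂ → Fld D}

lemma Dec.key (h : Dec Q B F C) (hs : 0 < s) (hf : IsTest f) (v : D) :
    B f (u Q s hs v) = u Q s hs (∑ d ∈ F, (s : ℂ) ^ (4 - d) • C d (ds s f) v) := by
  rw [h.2 f _ hf, map_sum]
  exact Finset.sum_congr rfl fun d _ => ((h.1 d).2 s f v hs hf).trans
    (map_smul (u Q s hs) _ _).symm

lemma Dec.dl (h : Dec Q B F C) (R : Rep Q A) (hs : 0 < s) (hf : IsTest f) (v : D) :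
    dl Q s hs B f v = ∑ d ∈ F, (s : ℂ) ^ (d - 4) • C d f v := by
  rw [Fss.dl, h.key (inv_pos.2 hs) (ds_test hs hf), u_inv R, ds_inv hs]
  refine Finset.sum_congr rfl fun d _ => ?_
  rw [Complex.ofReal_inv, Complex.inv_cpow _ _ (by
    rw [Complex.arg_ofReal_of_nonneg hs.le]; exact Real.pi_ne_zero.symm), ← Complex.cpow_neg,
    neg_sub]

lemma Dec.comm (h : Dec Q B F C) (R : Rep Q A) (hs : 0 < s) (hf : IsTest f) (P : D →ₗ[ℂ] D)
    (v w : D) : inner ℂ w (u Q s hs (P (u Q s⁻¹ (inv_pos.2 hs) (B f v))) -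
      B f (u Q s hs (P (u Q s⁻¹ (inv_pos.2 hs) v)))) = ∑ d ∈ F, (s : ℂ) ^ (4 - d) *
      inner ℂ (u Q s⁻¹ (inv_pos.2 hs) w) (P (C d (ds s f) (u Q s⁻¹ (inv_pos.2 hs) v)) -
        C d (ds s f) (P (u Q s⁻¹ (inv_pos.2 hs) v))) := by
  conv_lhs => rw [← u_inv R hs v]
  rw [h.key hs hf, h.key hs hf, inv_u R, inv_u R, ← map_sub, u_adj R, map_sum,
    ← Finset.sum_sub_distrib, inner_sum]
  exact Finset.sum_congr rfl fun d _ => by rw [map_smul, ← smul_sub, inner_smul_right]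

lemma cut_ds {G : ℝ → Fn} (hG : IsCutoff G) (hs : 0 < s) :
    IsCutoff fun R x => (s : ℂ) * ds s (G R) x := by
  obtain ⟨a, c, ha, hc, h1, h2, h3⟩ := hG
  refine ⟨fun t => s * a (s * t), fun x => c (s • x), ?_, ?_, ?_, ?_, fun R hR =>
    ⟨Ap.sw_cmul _ (ds_test hs (h3 R hR).1), fun x => ?_⟩⟩
  · exact (ha.comp_homeomorph (Homeomorph.mulLeft₀ s hs.ne')).mul_left
  · exact hc.comp_homeomorph (Homeomorph.smulOfNeZero s hs.ne')
  · rw [MeasureTheory.integral_const_mul, MeasureTheory.Measure.integral_comp_mul_left, h1,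
      abs_of_pos (inv_pos.2 hs), smul_eq_mul, mul_one, mul_inv_cancel₀ hs.ne']
  · exact ((continuous_const_smul s).tendsto' 0 0 (smul_zero s)).eventually h2
  · beta_reduce
    rw [ds_apply, (h3 R hR).2]
    push_cast
    rw [mul_assoc]
    congr 4
    funext n
    simp only [Pi.smul_apply, smul_eq_mul]
    split_ifs <;> ring

lemma test_sim0 {X : V → V} (hX : IsSim 0 X) (hg : IsTest g) (n : Ix) :
    IsTest fun x => (eta n : ℂ) * X x n * g x := by
  obtain ⟨c, w, -, h⟩ := hX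
  refine Ap.sw_congr (Ap.sw_cmul (eta n) (Ap.sw_rmul (u := fun x => X x n) ?_ hg)) fun x =>
    mul_assoc _ _ _
  simp only [h]
  fun_prop

/-- the current as a linear map -/
def curL (hT : ∀ m n, Q.fld (T m n)) {X : V → V} (hX : IsSim 0 X) (hg : IsTest g) : D →ₗ[ℂ] D :=
  ∑ n, fl (hT o n) (test_sim0 hX hg n)

lemma curL_apply (hT : ∀ m n, Q.fld (T m n)) {X : V → V} (hX : IsSim 0 X) (hg : IsTest g)
    (v : D) : curL hT hX hg v = ND.cur T X g v := LinearMap.sum_apply _ _ _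

section
variable (R : Rep Q A) (hT : Stress0 Q T) (hs : 0 < s)
include R hT

lemma dl_herm (m n : Ix) (hf : IsTest f) (v w : D) :
    inner ℂ (dl Q s hs (T m n) f v) w = inner ℂ v (dl Q s hs (T m n) (bar f) w) := by
  rw [dl, dl, u_adj R, ← inner_conj_symm, u_adj R, inner_conj_symm,
    hT.herm m n _ _ _ (ds_test hs hf)]
  rfl

lemma dl_cov (m n : Ix) {L : Ix → V} (hL : IsLor L) (a : V) (hf : IsTest f) (v : D) :
    dl Q s hs (T m n) f (Q.U 1 L a v) = ∑ k, ∑ l, (L k m * L l n : ℂ) •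
      Q.U 1 L a (dl Q s hs (T k l) (fun x => f (sim 1 L a x)) v) := by
  rw [dl, (U_dil R _ hL a v).1, ← (U_dil R (inv_pos.2 hs) hL _ v).2,
    hT.cov m n L _ _ _ hL (ds_test hs hf)]
  simp only [map_sum, map_smul, dl, (U_dil R hs hL _ _).1, (U_dil R hs hL _ _).2,
    smul_inv_smul₀ hs.ne']
  refine Finset.sum_congr rfl fun k _ => Finset.sum_congr rfl fun l _ => ?_
  congr 3
  funext x
  rw [ds_apply, ds_apply, N86.c1_sim, N86.c1_sim 1 L a, simL_smul, smul_add,
    smul_inv_smul₀ hs.ne', one_smul, one_smul]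

lemma dl_cons (n : Ix) (hf : IsTest f) (v : D) : ∑ m, dl Q s hs (T m n) (pd m f) v = 0 := by
  have := hT.conserved n _ (u Q s⁻¹ (inv_pos.2 hs) v) (ds_test hs hf)
  simp only [ds_pd hs hf, fun m => lin1 (Q.bose_fld _ (hT.bose m n))
    (ds_test hs (Ap.test_pd m hf)), ← Finset.smul_sum] at this
  simp only [dl, ← map_sum]
  rw [(smul_eq_zero.1 this).resolve_left (Complex.ofReal_ne_zero.2 hs.ne'), map_zero]

lemma dl_charge (h : Dec Q B F C) {G : ℝ → Fn} (hG : IsCutoff G) (n : Ix) (hf : IsTest f)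
    (hc : HasCompactSupport f) (v w : D) : Tendsto (fun r => inner ℂ w
      (dl Q s hs (T o n) (G r) (B f v) - B f (dl Q s hs (T o n) (G r) v))) atTop
      (𝓝 (inner ℂ w ((Complex.I * eta n) • B (pd n f) v))) := by
  have hb := Q.bose_fld _ (hT.bose o n)
  have s0 : (s : ℂ) ≠ 0 := Complex.ofReal_ne_zero.2 hs.ne'
  have l := tendsto_finset_sum F fun d _ => ((hT.charge _ n _ _ (u Q s⁻¹ (inv_pos.2 hs) v)
    (u Q s⁻¹ (inv_pos.2 hs) w) (cut_ds hG hs) (h.1 d).1 (ds_test hs hf)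
    (ds_cpt hs hc)).const_mul (s : ℂ)⁻¹).const_mul ((s : ℂ) ^ (4 - d))
  convert l.congr' ((isTest_cutoff hG).mono fun r hr => ?_) using 2
  · conv_lhs => rw [← u_inv R hs v, h.key hs (Ap.test_pd n hf), ← map_smul, u_adj R,
      Finset.smul_sum, inner_sum]
    refine Finset.sum_congr rfl fun d _ => ?_
    rw [ds_pd hs hf, lin1 (h.1 d).1 (ds_test hs (Ap.test_pd n hf))]
    simp only [inner_smul_right]
    field_simp
  · refine Eq.trans (Finset.sum_congr rfl fun d _ => ?_)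
      (h.comm R hs hf (fl hb (ds_test hs hr)) v w).symm
    rw [lin1 hb (ds_test hs hr), lin1 hb (ds_test hs hr),
      H746.fld_smul (h.1 d).1 (ds_test hs hf), ← smul_sub, inner_smul_right, inv_mul_cancel_left₀ s0]
    rfl

lemma dl_pch (hP : ND.PCh Q T A) (h : Dec Q B F C) {G : ℝ → Fn} (hG : IsCutoff G) {X : V → V}
    (hX : IsSim 0 X) (hf : IsTest f) (hc : HasCompactSupport f) (v w : D) :
    Tendsto (fun r => inner ℂ w (ND.cur (fun m n => dl Q s hs (T m n)) X (G r) (B f v) -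
      B f (ND.cur (fun m n => dl Q s hs (T m n)) X (G r) v))) atTop
      (𝓝 (inner ℂ w (A X (B f v) - B f (A X v)))) := by
  have hb := fun m n => Q.bose_fld _ (hT.bose m n)
  have s0 : (s : ℂ) ≠ 0 := Complex.ofReal_ne_zero.2 hs.ne'
  set X' : V → V := fun z => s⁻¹ • X (s • z) with hX'
  have hX1 : IsSim 0 X' := by
    obtain ⟨c, w, h1, h2⟩ := hX
    refine ⟨s⁻¹ • c, w, h1, fun z n => ?_⟩
    simp only [hX', Pi.smul_apply, h2, smul_eq_mul, mul_assoc, ← Finset.mul_sum]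
    field_simp
  let P : D →ₗ[ℂ] D := ⟨⟨A X', H746.A_addv R hX1⟩, H746.A_smulv R hX1⟩
  have eP : ∀ z, u Q s hs (P (u Q s⁻¹ (inv_pos.2 hs) z)) = A X z := fun z => by
    refine (N86.A_conj R hX1 hs isLor_one 0 _).trans ?_
    rw [show Q.U s GF.one 0 _ = z from u_inv R hs z]
    congr 1
    funext y
    have : H246.linv GF.one = GF.one := by
      funext m n
      fin_cases m <;> fin_cases n <;> simp [H246.linv, GF.one, bas, eta, o]
    simp only [this, sim_dil, hX', zero_add, sub_zero, one_smul, smul_inv_smul₀ hs.ne']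
  have l := tendsto_finset_sum F fun d _ => (hP _ X' _ _ (u Q s⁻¹ (inv_pos.2 hs) v)
    (u Q s⁻¹ (inv_pos.2 hs) w) (cut_ds hG hs) hX1 (h.1 d).1 (ds_test hs hf)
    (ds_cpt hs hc)).const_mul ((s : ℂ) ^ (4 - d))
  convert l.congr' ((isTest_cutoff hG).mono fun r hr => ?_) using 2
  · rw [← eP, ← eP]
    exact h.comm R hs hf P v w
  · have ht : IsTest fun x => (s : ℂ) * ds s (G r) x := Ap.sw_cmul s (ds_test hs hr)
    have e : ∀ z, ND.cur (fun m n => dl Q s hs (T m n)) X (G r) z =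
        u Q s hs (curL hb hX1 ht (u Q s⁻¹ (inv_pos.2 hs) z)) := fun z => by
      rw [curL_apply, ND.cur, ND.cur, map_sum]
      refine Finset.sum_congr rfl fun n _ => ?_
      rw [dl]
      congr 2
      funext x
      simp only [ds_apply, hX', Pi.smul_apply, smul_eq_mul]
      push_cast
      field_simp
    rw [e, e, h.comm R hs hf]
    simp only [curL_apply]

end

end

end Vale.Agent.P352X.Fss
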